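import Vale.Agent.Lib.P058.Defs

/-!
# P058: metric consequences of the affine dependency of a quadrilateral

Four points `a b c d` with `μ₁ a + μ₂ b = μ₃ c + μ₄ d`, `μ₁ + μ₂ = μ₃ + μ₄ = 1` (the segments
`ab` and `cd` meet at the point `N`).  Then `a - N = μ₂ (a - b)`, `b - N = -μ₁ (a - b)`,
`c - N = μ₄ (c - d)`, `d - N = -μ₃ (c - d)`, so all distances are determined by
`dist a b`, `dist c d` and `κ = ⟪a - b, c - d⟫`.
-/

namespace Vale.Agent.P058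

theorem inner_comb {k : ℕ} (α β γ δ : ℝ) (U V : E k) :
    inner ℝ (α • U + β • V) (γ • U + δ • V)
      = α * γ * ‖U‖ ^ 2 + β * δ * ‖V‖ ^ 2 + (α * δ + β * γ) * inner ℝ U V := by
  rw [inner_add_left, inner_add_right, inner_add_right, inner_smul_left, inner_smul_left,
    inner_smul_left, inner_smul_left, inner_smul_right, inner_smul_right, inner_smul_right,
    inner_smul_right, real_inner_self_eq_norm_sq, real_inner_self_eq_norm_sq,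
    real_inner_comm U V]
  simp only [conj_trivial]
  ring

theorem norm_comb {k : ℕ} (α β : ℝ) (U V : E k) :
    ‖α • U + β • V‖ ^ 2 = α ^ 2 * ‖U‖ ^ 2 + β ^ 2 * ‖V‖ ^ 2 + 2 * α * β * inner ℝ U V := by
  rw [← real_inner_self_eq_norm_sq, inner_comb]
  ring

theorem quad_vec {k : ℕ} (μ₁ μ₂ μ₃ μ₄ : ℝ) (h12 : μ₁ + μ₂ = 1) (h34 : μ₃ + μ₄ = 1)
    (a b c d : E k) (hdep : μ₁ • a + μ₂ • b = μ₃ • c + μ₄ • d) :
    a - c = μ₂ • (a - b) + (-μ₄) • (c - d) ∧ a - d = μ₂ • (a - b) + μ₃ • (c - d) ∧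
    b - c = (-μ₁) • (a - b) + (-μ₄) • (c - d) ∧ b - d = (-μ₁) • (a - b) + μ₃ • (c - d) := by
  refine ⟨?_, ?_, ?_, ?_⟩
  · linear_combination (norm := module) hdep - h12 • a + h34 • c
  · linear_combination (norm := module) hdep - h12 • a + h34 • d
  · linear_combination (norm := module) hdep - h12 • b + h34 • c
  · linear_combination (norm := module) hdep - h12 • b + h34 • d

theorem quad_dists {k : ℕ} (μ₁ μ₂ μ₃ μ₄ : ℝ) (h12 : μ₁ + μ₂ = 1) (h34 : μ₃ + μ₄ = 1)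
    (a b c d : E k) (hdep : μ₁ • a + μ₂ • b = μ₃ • c + μ₄ • d) :
    dist a c ^ 2 = μ₂ ^ 2 * dist a b ^ 2 + μ₄ ^ 2 * dist c d ^ 2
        - 2 * μ₂ * μ₄ * inner ℝ (a - b) (c - d) ∧
    dist a d ^ 2 = μ₂ ^ 2 * dist a b ^ 2 + μ₃ ^ 2 * dist c d ^ 2
        + 2 * μ₂ * μ₃ * inner ℝ (a - b) (c - d) ∧
    dist b c ^ 2 = μ₁ ^ 2 * dist a b ^ 2 + μ₄ ^ 2 * dist c d ^ 2
        + 2 * μ₁ * μ₄ * inner ℝ (a - b) (c - d) ∧
    dist b d ^ 2 = μ₁ ^ 2 * dist a b ^ 2 + μ₃ ^ 2 * dist c d ^ 2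
        - 2 * μ₁ * μ₃ * inner ℝ (a - b) (c - d) := by
  obtain ⟨e1, e2, e3, e4⟩ := quad_vec μ₁ μ₂ μ₃ μ₄ h12 h34 a b c d hdep
  refine ⟨?_, ?_, ?_, ?_⟩
  · rw [dist_eq_norm a c, dist_eq_norm a b, dist_eq_norm c d, e1, norm_comb]
    ring
  · rw [dist_eq_norm a d, dist_eq_norm a b, dist_eq_norm c d, e2, norm_comb]
  · rw [dist_eq_norm b c, dist_eq_norm a b, dist_eq_norm c d, e3, norm_comb]
    ring
  · rw [dist_eq_norm b d, dist_eq_norm a b, dist_eq_norm c d, e4, norm_comb]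
    ring

theorem quad_inner {k : ℕ} (μ₁ μ₂ μ₃ μ₄ : ℝ) (h12 : μ₁ + μ₂ = 1) (h34 : μ₃ + μ₄ = 1)
    (a b c d : E k) (hdep : μ₁ • a + μ₂ • b = μ₃ • c + μ₄ • d) :
    inner ℝ (a - c) (b - d) = -(μ₁ * μ₂ * dist a b ^ 2) - μ₃ * μ₄ * dist c d ^ 2
        + (μ₁ * μ₄ + μ₂ * μ₃) * inner ℝ (a - b) (c - d) ∧
    inner ℝ (a - d) (b - c) = -(μ₁ * μ₂ * dist a b ^ 2) - μ₃ * μ₄ * dist c d ^ 2
        - (μ₁ * μ₃ + μ₂ * μ₄) * inner ℝ (a - b) (c - d) := by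
  obtain ⟨e1, e2, e3, e4⟩ := quad_vec μ₁ μ₂ μ₃ μ₄ h12 h34 a b c d hdep
  refine ⟨?_, ?_⟩
  · rw [dist_eq_norm a b, dist_eq_norm c d, e1, e4, inner_comb]
    ring
  · rw [dist_eq_norm a b, dist_eq_norm c d, e2, e3, inner_comb]
    ring

/-- power of the point `N` with respect to a sphere through the four points -/
theorem quad_power {k : ℕ} (μ₁ μ₂ μ₃ μ₄ : ℝ) (h12 : μ₁ + μ₂ = 1) (h34 : μ₃ + μ₄ = 1)
    (a b c d o : E k) (hdep : μ₁ • a + μ₂ • b = μ₃ • c + μ₄ • d)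
    (ha : dist a o = dist b o) (hc : dist c o = dist b o) (hd : dist d o = dist b o) :
    μ₁ * μ₂ * dist a b ^ 2 = μ₃ * μ₄ * dist c d ^ 2 := by
  rw [dist_eq_norm, dist_eq_norm] at ha hc hd
  have hN : μ₁ • (a - o) + μ₂ • (b - o) = μ₃ • (c - o) + μ₄ • (d - o) := by
    linear_combination (norm := module) hdep - h12 • o + h34 • o
  have n1 := norm_comb μ₁ μ₂ (a - o) (b - o)
  have n2 := norm_comb μ₃ μ₄ (c - o) (d - o)
  rw [hN] at n1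
  have d1 : dist a b ^ 2 = ‖a - o‖ ^ 2 + ‖b - o‖ ^ 2 - 2 * inner ℝ (a - o) (b - o) := by
    have e : a - b = (1 : ℝ) • (a - o) + (-1 : ℝ) • (b - o) := by module
    rw [dist_eq_norm, e, norm_comb]
    ring
  have d2 : dist c d ^ 2 = ‖c - o‖ ^ 2 + ‖d - o‖ ^ 2 - 2 * inner ℝ (c - o) (d - o) := by
    have e : c - d = (1 : ℝ) • (c - o) + (-1 : ℝ) • (d - o) := by module
    rw [dist_eq_norm, e, norm_comb]
    ring
  rw [d1, d2, ha, hc, hd]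
  rw [ha] at n1
  rw [hc, hd] at n2
  have h2 : μ₂ = 1 - μ₁ := by linarith
  have h4 : μ₄ = 1 - μ₃ := by linarith
  subst h2 h4
  linear_combination n1 - n2

end Vale.Agent.P058
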