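import Vale.Agent.Lib.P058.Ramsey.QuadCycle

/-!
# P058: a cycle-matching model of a quadrilateral with prescribed affine dependency

Cycle of length `2 n`, `n = α + β`.  Even edge `2 i`: letter `A` if `i < α`, `B` otherwise; odd edge
`2 i + 1`: letter `C` if `i < α`, `D` otherwise.  The four edge sets are the four letters.
Increments `xA, xB, xC, xD` with `α xA + β xB + α xC + β xD = 0`.
-/

namespace Vale.Agent.P058

open scoped BigOperators

theorem kc_dist_pair' {m : ℕ} {S T : ℕ → Bool} (hS : Indep m S) (hT : Indep m T) (val e : ℕ → ℝ)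
    (he : ∀ y, y ≤ m → val (csucc m y) - val y = e y) :
    dist (cycVec m val S) (cycVec m val T) ^ 2 =
      2 * ∑ y ∈ Finset.range (m + 1), (kcI S e y - kcI T e y) ^ 2
      - 2 * ∑ y ∈ Finset.range (m + 1),
          (kcI S e y - kcI T e y) * (kcI S e (cpred m y) - kcI T e (cpred m y)) := by
  rw [kc_dist_sq]
  have h1 : ∀ y ∈ Finset.range (m + 1),
      (val (swapAt m S y) - val (swapAt m T y)) ^ 2 =
      (kcI S e y - kcI T e y) ^ 2 + (kcI S e (cpred m y) - kcI T e (cpred m y)) ^ 2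
      - 2 * ((kcI S e y - kcI T e y) * (kcI S e (cpred m y) - kcI T e (cpred m y))) := by
    intro y hy
    have hy' : y ≤ m := by simpa [Nat.lt_succ_iff] using hy
    rw [kc_swap_val hS val e he hy', kc_swap_val hT val e he hy']
    ring
  have h2 : ∑ y ∈ Finset.range (m + 1), (kcI S e (cpred m y) - kcI T e (cpred m y)) ^ 2 =
      ∑ y ∈ Finset.range (m + 1), (kcI S e y - kcI T e y) ^ 2 :=
    kc_sum_cpred m (fun s => (kcI S e s - kcI T e s) ^ 2)
  rw [Finset.sum_congr rfl h1, Finset.sum_sub_distrib, Finset.sum_add_distrib, h2,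
    ← Finset.mul_sum]
  ring

def rA (α s : ℕ) : Bool := decide (s % 2 = 0 ∧ s / 2 < α)
def rB (α s : ℕ) : Bool := decide (s % 2 = 0 ∧ α ≤ s / 2)
def rC (α s : ℕ) : Bool := decide (s % 2 = 1 ∧ s / 2 < α)
def rD (α s : ℕ) : Bool := decide (s % 2 = 1 ∧ α ≤ s / 2)

noncomputable def rE (α : ℕ) (xA xB xC xD : ℝ) (s : ℕ) : ℝ :=
  if s % 2 = 0 then (if s / 2 < α then xA else xB) else (if s / 2 < α then xC else xD)

theorem rA_even (α i : ℕ) : rA α (2 * i) = true ↔ i < α := by
  unfold rA; simp only [decide_eq_true_eq]; omega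
theorem rA_odd (α i : ℕ) : rA α (2 * i + 1) = false := by
  unfold rA; simp only [decide_eq_false_iff_not]; omega
theorem rB_even (α i : ℕ) : rB α (2 * i) = true ↔ ¬ i < α := by
  unfold rB; simp only [decide_eq_true_eq]; omega
theorem rB_odd (α i : ℕ) : rB α (2 * i + 1) = false := by
  unfold rB; simp only [decide_eq_false_iff_not]; omega
theorem rC_odd (α i : ℕ) : rC α (2 * i + 1) = true ↔ i < α := by
  unfold rC; simp only [decide_eq_true_eq]; omega
theorem rC_even (α i : ℕ) : rC α (2 * i) = false := by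
  unfold rC; simp only [decide_eq_false_iff_not]; omega
theorem rD_odd (α i : ℕ) : rD α (2 * i + 1) = true ↔ ¬ i < α := by
  unfold rD; simp only [decide_eq_true_eq]; omega
theorem rD_even (α i : ℕ) : rD α (2 * i) = false := by
  unfold rD; simp only [decide_eq_false_iff_not]; omega

theorem rE_even (α : ℕ) (xA xB xC xD : ℝ) (i : ℕ) :
    rE α xA xB xC xD (2 * i) = if i < α then xA else xB := by
  unfold rE
  have h1 : 2 * i % 2 = 0 := by omega
  have h2 : 2 * i / 2 = i := by omega
  rw [if_pos h1, h2]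

theorem rE_odd (α : ℕ) (xA xB xC xD : ℝ) (i : ℕ) :
    rE α xA xB xC xD (2 * i + 1) = if i < α then xC else xD := by
  unfold rE
  have h1 : ¬ ((2 * i + 1) % 2 = 0) := by omega
  have h2 : (2 * i + 1) / 2 = i := by omega
  rw [if_neg h1, h2]

theorem rA_par (α s : ℕ) (h : rA α s = true) : s % 2 = 0 := by
  unfold rA at h; simp only [decide_eq_true_eq] at h; exact h.1
theorem rB_par (α s : ℕ) (h : rB α s = true) : s % 2 = 0 := by
  unfold rB at h; simp only [decide_eq_true_eq] at h; exact h.1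
theorem rC_par (α s : ℕ) (h : rC α s = true) : s % 2 = 1 := by
  unfold rC at h; simp only [decide_eq_true_eq] at h; exact h.1
theorem rD_par (α s : ℕ) (h : rD α s = true) : s % 2 = 1 := by
  unfold rD at h; simp only [decide_eq_true_eq] at h; exact h.1

theorem kc_two (n α : ℕ) (h : α ≤ n) (x y : ℝ) :
    ∑ i ∈ Finset.range n, (if i < α then x else y) = α * x + ((n : ℝ) - α) * y := by
  have h1 : ∀ i ∈ Finset.range n, (if i < α then x else y) = if 0 ≤ i ∧ i < α then x else y := by
    intro i _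
    simp
  rw [Finset.sum_congr rfl h1, kc_count' n 0 α (Nat.zero_le α) h]
  push_cast
  ring

theorem r_pattern (α : ℕ) (xA xB xC xD μ₁ μ₂ μ₃ μ₄ t : ℝ) (hA : μ₁ * xA = t) (hB : μ₂ * xB = t)
    (hC : μ₃ * xC = -t) (hD : μ₄ * xD = -t) (s : ℕ) :
    μ₁ * kcI (rA α) (rE α xA xB xC xD) s + μ₂ * kcI (rB α) (rE α xA xB xC xD) s
      - μ₃ * kcI (rC α) (rE α xA xB xC xD) s - μ₄ * kcI (rD α) (rE α xA xB xC xD) s = t := by
  rcases Nat.even_or_odd' s with ⟨i, rfl | rfl⟩
  · simp only [kcI, rA_even, rB_even, rC_even, rD_even, rE_even, Bool.false_eq_true, if_false]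
    split_ifs <;> first
      | (exfalso; omega)
      | linear_combination hA
      | linear_combination hB
  · simp only [kcI, rA_odd, rB_odd, rC_odd, rD_odd, rE_odd, Bool.false_eq_true, if_false]
    split_ifs <;> first
      | (exfalso; omega)
      | linear_combination (-1 : ℝ) * hC
      | linear_combination (-1 : ℝ) * hD

theorem r_total (α β n : ℕ) (hn : n = α + β) (xA xB xC xD : ℝ) :
    ∑ s ∈ Finset.range (2 * n), rE α xA xB xC xD s = α * xA + β * xB + α * xC + β * xD := by
  rw [kc_sum_even_odd, Finset.sum_add_distrib]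
  simp only [rE_even, rE_odd]
  rw [kc_two n α (by omega), kc_two n α (by omega), hn]
  push_cast
  ring

theorem r_sum_AB (α β n : ℕ) (hn : n = α + β) (xA xB xC xD : ℝ) :
    ∑ s ∈ Finset.range (2 * n),
      (kcI (rA α) (rE α xA xB xC xD) s - kcI (rB α) (rE α xA xB xC xD) s) ^ 2 =
      α * xA ^ 2 + β * xB ^ 2 := by
  rw [kc_sum_even_odd, Finset.sum_add_distrib]
  have h1 : ∀ i, (kcI (rA α) (rE α xA xB xC xD) (2 * i)
      - kcI (rB α) (rE α xA xB xC xD) (2 * i)) ^ 2 = if i < α then xA ^ 2 else xB ^ 2 := by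
    intro i
    simp only [kcI, rA_even, rB_even, rE_even]
    split_ifs <;> first | (exfalso; omega) | ring
  have h2 : ∀ i, (kcI (rA α) (rE α xA xB xC xD) (2 * i + 1)
      - kcI (rB α) (rE α xA xB xC xD) (2 * i + 1)) ^ 2 = 0 := by
    intro i
    simp [kcI, rA_odd, rB_odd]
  simp only [h1, h2, Finset.sum_const_zero, add_zero]
  rw [kc_two n α (by omega), hn]
  push_cast
  ring

theorem r_sum_CD (α β n : ℕ) (hn : n = α + β) (xA xB xC xD : ℝ) :
    ∑ s ∈ Finset.range (2 * n),
      (kcI (rC α) (rE α xA xB xC xD) s - kcI (rD α) (rE α xA xB xC xD) s) ^ 2 =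
      α * xC ^ 2 + β * xD ^ 2 := by
  rw [kc_sum_even_odd, Finset.sum_add_distrib]
  have h1 : ∀ i, (kcI (rC α) (rE α xA xB xC xD) (2 * i + 1)
      - kcI (rD α) (rE α xA xB xC xD) (2 * i + 1)) ^ 2 = if i < α then xC ^ 2 else xD ^ 2 := by
    intro i
    simp only [kcI, rC_odd, rD_odd, rE_odd]
    split_ifs <;> first | (exfalso; omega) | ring
  have h2 : ∀ i, (kcI (rC α) (rE α xA xB xC xD) (2 * i)
      - kcI (rD α) (rE α xA xB xC xD) (2 * i)) ^ 2 = 0 := by
    intro i
    simp [kcI, rC_even, rD_even]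
  simp only [h1, h2, Finset.sum_const_zero, zero_add]
  rw [kc_two n α (by omega), hn]
  push_cast
  ring

theorem r_sum_AC (α β n : ℕ) (hn : n = α + β) (xA xB xC xD : ℝ) :
    ∑ s ∈ Finset.range (2 * n),
      (kcI (rA α) (rE α xA xB xC xD) s - kcI (rC α) (rE α xA xB xC xD) s) ^ 2 =
      α * xA ^ 2 + α * xC ^ 2 := by
  rw [kc_sum_even_odd, Finset.sum_add_distrib]
  have h1 : ∀ i, (kcI (rA α) (rE α xA xB xC xD) (2 * i)
      - kcI (rC α) (rE α xA xB xC xD) (2 * i)) ^ 2 = if i < α then xA ^ 2 else 0 := by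
    intro i
    simp only [kcI, rA_even, rC_even, rE_even, Bool.false_eq_true, if_false]
    split_ifs <;> first | (exfalso; omega) | ring
  have h2 : ∀ i, (kcI (rA α) (rE α xA xB xC xD) (2 * i + 1)
      - kcI (rC α) (rE α xA xB xC xD) (2 * i + 1)) ^ 2 = if i < α then xC ^ 2 else 0 := by
    intro i
    simp only [kcI, rA_odd, rC_odd, rE_odd, Bool.false_eq_true, if_false]
    split_ifs <;> first | (exfalso; omega) | ring
  simp only [h1, h2]
  rw [kc_two n α (by omega), kc_two n α (by omega)]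
  ring

theorem r_cross_AC (α β n m : ℕ) (hα : 0 < α) (hβ : 0 < β) (hn : n = α + β) (hm : m + 1 = 2 * n)
    (xA xB xC xD : ℝ) :
    ∑ s ∈ Finset.range (2 * n),
      (kcI (rA α) (rE α xA xB xC xD) s - kcI (rC α) (rE α xA xB xC xD) s) *
      (kcI (rA α) (rE α xA xB xC xD) (cpred m s) - kcI (rC α) (rE α xA xB xC xD) (cpred m s)) =
      -((2 * (α : ℝ) - 1) * (xA * xC)) := by
  rw [kc_sum_even_odd, Finset.sum_add_distrib]
  have h1 : ∀ i ∈ Finset.range n, (kcI (rA α) (rE α xA xB xC xD) (2 * i)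
      - kcI (rC α) (rE α xA xB xC xD) (2 * i)) *
      (kcI (rA α) (rE α xA xB xC xD) (cpred m (2 * i))
        - kcI (rC α) (rE α xA xB xC xD) (cpred m (2 * i))) =
      if 1 ≤ i ∧ i < α then -(xA * xC) else 0 := by
    intro i _
    rcases Nat.eq_zero_or_pos i with hi | hi
    · subst hi
      have hc : cpred m (2 * 0) = 2 * (n - 1) + 1 := by
        unfold cpred
        simp
        omega
      rw [hc]
      simp only [kcI, rA_even, rC_even, rE_even, rA_odd, rC_odd, rE_odd, Bool.false_eq_true,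
        if_false]
      split_ifs <;> first | (exfalso; omega) | ring
    · obtain ⟨j, rfl⟩ : ∃ j, i = j + 1 := ⟨i - 1, by omega⟩
      have hc : cpred m (2 * (j + 1)) = 2 * j + 1 := by
        unfold cpred
        rw [if_neg (by omega)]
        omega
      rw [hc]
      simp only [kcI, rA_even, rC_even, rE_even, rA_odd, rC_odd, rE_odd, Bool.false_eq_true,
        if_false]
      split_ifs <;> first | (exfalso; omega) | ring
  have h2 : ∀ i ∈ Finset.range n, (kcI (rA α) (rE α xA xB xC xD) (2 * i + 1)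
      - kcI (rC α) (rE α xA xB xC xD) (2 * i + 1)) *
      (kcI (rA α) (rE α xA xB xC xD) (cpred m (2 * i + 1))
        - kcI (rC α) (rE α xA xB xC xD) (cpred m (2 * i + 1))) =
      if i < α then -(xA * xC) else 0 := by
    intro i _
    have hc : cpred m (2 * i + 1) = 2 * i := by
      unfold cpred
      rw [if_neg (by omega)]
      omega
    rw [hc]
    simp only [kcI, rA_even, rC_even, rE_even, rA_odd, rC_odd, rE_odd, Bool.false_eq_true,
      if_false]
    split_ifs <;> first | (exfalso; omega) | ring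
  rw [Finset.sum_congr rfl h1, Finset.sum_congr rfl h2, kc_count n 1 α hα (by omega),
    kc_two n α (by omega)]
  push_cast
  ring

theorem r_even_zero (S T : ℕ → Bool) (hS : ∀ s, S s = true → s % 2 = 0)
    (hT : ∀ s, T s = true → s % 2 = 0) (e : ℕ → ℝ) (s : ℕ) (hs : s % 2 = 1) :
    kcI S e s - kcI T e s = 0 := by
  have h1 : S s = false := by
    by_contra h
    rw [Bool.not_eq_false] at h
    have := hS s h
    omega
  have h2 : T s = false := by
    by_contra h
    rw [Bool.not_eq_false] at h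
    have := hT s h
    omega
  simp [kcI, h1, h2]

theorem r_odd_zero (S T : ℕ → Bool) (hS : ∀ s, S s = true → s % 2 = 1)
    (hT : ∀ s, T s = true → s % 2 = 1) (e : ℕ → ℝ) (s : ℕ) (hs : s % 2 = 0) :
    kcI S e s - kcI T e s = 0 := by
  have h1 : S s = false := by
    by_contra h
    rw [Bool.not_eq_false] at h
    have := hS s h
    omega
  have h2 : T s = false := by
    by_contra h
    rw [Bool.not_eq_false] at h
    have := hT s h
    omega
  simp [kcI, h1, h2]

theorem quad_model (α β : ℕ) (hα : 0 < α) (hβ : 0 < β) (xA xB xC xD : ℝ)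
    (hcl : (α : ℝ) * xA + β * xB + α * xC + β * xD = 0) :
    ∃ (m : ℕ) (T : Fin 4 → ℕ → Bool) (val : ℕ → ℝ), 2 ≤ m ∧ (∀ i, Indep m (T i)) ∧
      (∀ μ₁ μ₂ μ₃ μ₄ t : ℝ, μ₁ + μ₂ = μ₃ + μ₄ → μ₁ * xA = t → μ₂ * xB = t → μ₃ * xC = -t →
        μ₄ * xD = -t →
        μ₁ • cycVec m val (T 0) + μ₂ • cycVec m val (T 1)
          = μ₃ • cycVec m val (T 2) + μ₄ • cycVec m val (T 3)) ∧
      dist (cycVec m val (T 0)) (cycVec m val (T 1)) ^ 2 = 2 * (α * xA ^ 2 + β * xB ^ 2) ∧
      dist (cycVec m val (T 2)) (cycVec m val (T 3)) ^ 2 = 2 * (α * xC ^ 2 + β * xD ^ 2) ∧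
      dist (cycVec m val (T 0)) (cycVec m val (T 2)) ^ 2 =
        2 * α * (xA ^ 2 + xC ^ 2) + 2 * (2 * α - 1) * (xA * xC) := by
  obtain ⟨n, hn⟩ : ∃ n, n = α + β := ⟨_, rfl⟩
  obtain ⟨m, hm⟩ : ∃ m, m + 1 = 2 * n := ⟨2 * n - 1, by omega⟩
  set e : ℕ → ℝ := rE α xA xB xC xD with he_def
  set val : ℕ → ℝ := fun s => ∑ k ∈ Finset.range s, e k with hval
  have htot : ∑ k ∈ Finset.range (m + 1), e k = 0 := by
    rw [hm, he_def, r_total α β n hn]
    exact hcl
  have he : ∀ y, y ≤ m → val (csucc m y) - val y = e y := by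
    intro y _
    unfold csucc
    split_ifs with hy
    · subst hy
      rw [Finset.sum_range_succ] at htot
      simp only [hval, Finset.sum_range_zero]
      linarith
    · simp only [hval, Finset.sum_range_succ]
      ring
  have IA : Indep m (rA α) := q_indep_of_even hm _ (rA_par α)
  have IB : Indep m (rB α) := q_indep_of_even hm _ (rB_par α)
  have IC : Indep m (rC α) := q_indep_of_odd hm _ (rC_par α)
  have ID : Indep m (rD α) := q_indep_of_odd hm _ (rD_par α)
  have hpar : ∀ z, z ≤ m → (z % 2 = 0 → cpred m z % 2 = 1) ∧ (z % 2 = 1 → cpred m z % 2 = 0) := by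
    intro z hz
    unfold cpred
    constructor <;> intro h <;> split_ifs <;> omega
  refine ⟨m, ![rA α, rB α, rC α, rD α], val, by omega, ?_, ?_, ?_, ?_, ?_⟩
  · intro i
    fin_cases i
    · exact IA
    · exact IB
    · exact IC
    · exact ID
  · intro μ₁ μ₂ μ₃ μ₄ t hsum hA hB hC hD
    ext z
    have hz : z.val ≤ m := Nat.lt_succ_iff.mp z.isLt
    simp only [PiLp.add_apply, PiLp.smul_apply, smul_eq_mul, cycVec_apply, Matrix.cons_val_zero,
      Matrix.cons_val_one, Matrix.cons_val]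
    rw [kc_swap_val IA val e he hz, kc_swap_val IB val e he hz, kc_swap_val IC val e he hz,
      kc_swap_val ID val e he hz]
    have b1 := r_pattern α xA xB xC xD μ₁ μ₂ μ₃ μ₄ t hA hB hC hD z.val
    have b2 := r_pattern α xA xB xC xD μ₁ μ₂ μ₃ μ₄ t hA hB hC hD (cpred m z.val)
    rw [← he_def] at b1 b2
    linear_combination val z.val * hsum + b1 - b2
  · change dist (cycVec m val (rA α)) (cycVec m val (rB α)) ^ 2 = _
    rw [kc_dist_pair IA IB val e he, hm, he_def, r_sum_AB α β n hn]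
    intro z hz
    rcases Nat.mod_two_eq_zero_or_one z with hp | hp
    · rw [r_even_zero _ _ (rA_par α) (rB_par α) e _ ((hpar z hz).1 hp), mul_zero]
    · rw [r_even_zero _ _ (rA_par α) (rB_par α) e _ hp, zero_mul]
  · change dist (cycVec m val (rC α)) (cycVec m val (rD α)) ^ 2 = _
    rw [kc_dist_pair IC ID val e he, hm, he_def, r_sum_CD α β n hn]
    intro z hz
    rcases Nat.mod_two_eq_zero_or_one z with hp | hp
    · rw [r_odd_zero _ _ (rC_par α) (rD_par α) e _ hp, zero_mul]
    · rw [r_odd_zero _ _ (rC_par α) (rD_par α) e _ ((hpar z hz).2 hp), mul_zero]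
  · change dist (cycVec m val (rA α)) (cycVec m val (rC α)) ^ 2 = _
    rw [kc_dist_pair' IA IC val e he, hm, he_def, r_sum_AC α β n hn,
      r_cross_AC α β n m hα hβ hn hm]
    ring

end Vale.Agent.P058
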