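import Vale.Agent.Lib.P058.Quad.Product
import Vale.Agent.Lib.P058.Quad.Geom
import Vale.Agent.Lib.P058.Quad.Model

/-!
# P058: cyclic quadrilaterals as products of two cycle-matching models
-/

namespace Vale.Agent.P058

open scoped BigOperators

/-- the six squared distances `Dq i j` of a quadrilateral with affine dependency
`μ₁ a + μ₂ b = μ₃ c + μ₄ d`, in terms of `L = |ab|²`, `L' = |cd|²`, `κ = ⟪a - b, c - d⟫` -/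
def QForm (μ₁ μ₂ μ₃ μ₄ : ℝ) (Dq : Fin 4 → Fin 4 → ℝ) (L L' κ : ℝ) : Prop :=
  Dq 0 1 = L ∧ Dq 2 3 = L' ∧
  Dq 0 2 = μ₂ ^ 2 * L + μ₄ ^ 2 * L' - 2 * μ₂ * μ₄ * κ ∧
  Dq 0 3 = μ₂ ^ 2 * L + μ₃ ^ 2 * L' + 2 * μ₂ * μ₃ * κ ∧
  Dq 1 2 = μ₁ ^ 2 * L + μ₄ ^ 2 * L' + 2 * μ₁ * μ₄ * κ ∧
  Dq 1 3 = μ₁ ^ 2 * L + μ₃ ^ 2 * L' - 2 * μ₁ * μ₃ * κ

theorem qform_of_dep {k : ℕ} (μ₁ μ₂ μ₃ μ₄ : ℝ) (h12 : μ₁ + μ₂ = 1) (h34 : μ₃ + μ₄ = 1)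
    (P : Fin 4 → E k) (hdep : μ₁ • P 0 + μ₂ • P 1 = μ₃ • P 2 + μ₄ • P 3) :
    QForm μ₁ μ₂ μ₃ μ₄ (fun i j => dist (P i) (P j) ^ 2) (dist (P 0) (P 1) ^ 2)
      (dist (P 2) (P 3) ^ 2) (inner ℝ (P 0 - P 1) (P 2 - P 3)) := by
  obtain ⟨e1, e2, e3, e4⟩ := quad_dists μ₁ μ₂ μ₃ μ₄ h12 h34 (P 0) (P 1) (P 2) (P 3) hdep
  exact ⟨rfl, rfl, e1, e2, e3, e4⟩

theorem model_plus (μ₁ μ₂ μ₃ μ₄ K : ℝ) (h1 : 0 < μ₁) (h2 : 0 < μ₂) (h3 : 0 < μ₃) (h4 : 0 < μ₄)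
    (h12 : μ₁ + μ₂ = 1) (h34 : μ₃ + μ₄ = 1) (α β : ℕ) (hα0 : 0 < α) (hβ0 : 0 < β)
    (hα : (α : ℝ) = K * μ₁ * μ₃) (hβ : (β : ℝ) = K * μ₂ * μ₄) (s : ℝ) (hs : 0 ≤ s) :
    ∃ (m : ℕ) (T : Fin 4 → ℕ → Bool) (val : ℕ → ℝ), 2 ≤ m ∧ (∀ i, Indep m (T i)) ∧
      ∃ L L' : ℝ, μ₁ * μ₂ * L = 2 * K * (μ₁ * μ₄ + μ₂ * μ₃) * s ∧
        μ₃ * μ₄ * L' = 2 * K * (μ₁ * μ₄ + μ₂ * μ₃) * s ∧
        QForm μ₁ μ₂ μ₃ μ₄ (fun i j => dist (cycVec m val (T i)) (cycVec m val (T j)) ^ 2) L L'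
          (s * (4 * K - 1 / (μ₁ * μ₂ * μ₃ * μ₄))) := by
  obtain ⟨t, ht⟩ : ∃ t : ℝ, t ^ 2 = s := ⟨Real.sqrt s, Real.sq_sqrt hs⟩
  have hcl : (α : ℝ) * (t / μ₁) + β * (t / μ₂) + α * (-t / μ₃) + β * (-t / μ₄) = 0 := by
    rw [hα, hβ]
    field_simp
    linear_combination (-(t * K)) * h12 + t * K * h34
  obtain ⟨m, T, val, hm, hI, hdep, dAB, dCD, dAC⟩ :=
    quad_model α β hα0 hβ0 (t / μ₁) (t / μ₂) (-t / μ₃) (-t / μ₄) hcl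
  have hdep' := hdep μ₁ μ₂ μ₃ μ₄ t (by rw [h12, h34]) (by field_simp) (by field_simp)
    (by field_simp) (by field_simp)
  have hq := qform_of_dep μ₁ μ₂ μ₃ μ₄ h12 h34 (fun i => cycVec m val (T i)) hdep'
  refine ⟨m, T, val, hm, hI, 2 * (α * (t / μ₁) ^ 2 + β * (t / μ₂) ^ 2),
    2 * (α * (-t / μ₃) ^ 2 + β * (-t / μ₄) ^ 2), ?_, ?_, ?_⟩
  · rw [hα, hβ, ← ht]
    field_simp
    try ring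
  · rw [hα, hβ, ← ht]
    field_simp
    try ring
  · obtain ⟨q1, q2, q3, q4, q5, q6⟩ := hq
    simp only at q1 q2 q3 q4 q5 q6
    have hκ : inner ℝ (cycVec m val (T 0) - cycVec m val (T 1))
        (cycVec m val (T 2) - cycVec m val (T 3)) = s * (4 * K - 1 / (μ₁ * μ₂ * μ₃ * μ₄)) := by
      have h5 : 2 * μ₂ * μ₄ * inner ℝ (cycVec m val (T 0) - cycVec m val (T 1))
          (cycVec m val (T 2) - cycVec m val (T 3)) =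
          2 * μ₂ * μ₄ * (s * (4 * K - 1 / (μ₁ * μ₂ * μ₃ * μ₄))) := by
        have h6 : 2 * μ₂ * μ₄ * inner ℝ (cycVec m val (T 0) - cycVec m val (T 1))
          (cycVec m val (T 2) - cycVec m val (T 3)) =
          μ₂ ^ 2 * (2 * (α * (t / μ₁) ^ 2 + β * (t / μ₂) ^ 2))
            + μ₄ ^ 2 * (2 * (α * (-t / μ₃) ^ 2 + β * (-t / μ₄) ^ 2))
            - (2 * α * ((t / μ₁) ^ 2 + (-t / μ₃) ^ 2)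
                + 2 * (2 * α - 1) * ((t / μ₁) * (-t / μ₃))) := by
          rw [← dAB, ← dCD, ← dAC]
          linarith
        rw [h6, hα, hβ, ← ht]
        obtain rfl : μ₂ = 1 - μ₁ := by linarith
        obtain rfl : μ₄ = 1 - μ₃ := by linarith
        field_simp
        ring
      have h7 : 2 * μ₂ * μ₄ ≠ 0 := by positivity
      exact mul_left_cancel₀ h7 h5
    rw [← hκ, ← dAB, ← dCD]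
    exact ⟨rfl, rfl, q3, q4, q5, q6⟩

theorem qform_swap (μ₁ μ₂ μ₃ μ₄ : ℝ) (Dq : Fin 4 → Fin 4 → ℝ) (L L' κ : ℝ)
    (hsymm : Dq 3 2 = Dq 2 3) (h : QForm μ₁ μ₂ μ₄ μ₃ Dq L L' κ) :
    QForm μ₁ μ₂ μ₃ μ₄ (fun i j => Dq ((![0, 1, 3, 2] : Fin 4 → Fin 4) i)
      ((![0, 1, 3, 2] : Fin 4 → Fin 4) j)) L L' (-κ) := by
  obtain ⟨q1, q2, q3, q4, q5, q6⟩ := h
  refine ⟨q1, ?_, ?_, ?_, ?_, ?_⟩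
  · change Dq 3 2 = L'
    rw [hsymm, q2]
  · change Dq 0 3 = _
    rw [q4]; ring
  · change Dq 0 2 = _
    rw [q3]; ring
  · change Dq 1 3 = _
    rw [q6]; ring
  · change Dq 1 2 = _
    rw [q5]; ring

theorem quad_core {d : ℕ} (μ₁ μ₂ μ₃ μ₄ K : ℝ) (h1 : 0 < μ₁) (h2 : 0 < μ₂) (h3 : 0 < μ₃)
    (h4 : 0 < μ₄) (h12 : μ₁ + μ₂ = 1) (h34 : μ₃ + μ₄ = 1) (α₁ β₁ α₂ β₂ : ℕ)
    (hα₁0 : 0 < α₁) (hβ₁0 : 0 < β₁) (hα₂0 : 0 < α₂) (hβ₂0 : 0 < β₂)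
    (hα₁ : (α₁ : ℝ) = K * μ₁ * μ₃) (hβ₁ : (β₁ : ℝ) = K * μ₂ * μ₄)
    (hα₂ : (α₂ : ℝ) = K * μ₁ * μ₄) (hβ₂ : (β₂ : ℝ) = K * μ₂ * μ₃)
    (P : Fin 4 → E d) (hdep : μ₁ • P 0 + μ₂ • P 1 = μ₃ • P 2 + μ₄ • P 3)
    (hpow : μ₁ * μ₂ * dist (P 0) (P 1) ^ 2 = μ₃ * μ₄ * dist (P 2) (P 3) ^ 2)
    (s₁ s₂ : ℝ) (hs₁ : 0 ≤ s₁) (hs₂ : 0 ≤ s₂)
    (hL : 2 * K * ((μ₁ * μ₄ + μ₂ * μ₃) * s₁ + (μ₁ * μ₃ + μ₂ * μ₄) * s₂)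
      = μ₁ * μ₂ * dist (P 0) (P 1) ^ 2)
    (hκ : (4 * K - 1 / (μ₁ * μ₂ * μ₃ * μ₄)) * (s₁ - s₂) = inner ℝ (P 0 - P 1) (P 2 - P 3)) :
    IsRamsey (Set.range P) := by
  obtain ⟨m₁, T₁, val₁, hm₁, hI₁, L₁, L₁', eL₁, eL₁', Q₁⟩ :=
    model_plus μ₁ μ₂ μ₃ μ₄ K h1 h2 h3 h4 h12 h34 α₁ β₁ hα₁0 hβ₁0 hα₁ hβ₁ s₁ hs₁
  obtain ⟨m₂, T₂, val₂, hm₂, hI₂, L₂, L₂', eL₂, eL₂', Q₂⟩ :=
    model_plus μ₁ μ₂ μ₄ μ₃ K h1 h2 h4 h3 h12 (by linarith) α₂ β₂ hα₂0 hβ₂0 hα₂ hβ₂ s₂ hs₂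
  have Q₂' := qform_swap μ₁ μ₂ μ₃ μ₄ _ L₂ L₂' _ (by rw [dist_comm]) Q₂
  have Q₀ := qform_of_dep μ₁ μ₂ μ₃ μ₄ h12 h34 P hdep
  have h12pos : μ₁ * μ₂ ≠ 0 := by positivity
  have h34pos : μ₃ * μ₄ ≠ 0 := by positivity
  have hLsum : L₁ + L₂ = dist (P 0) (P 1) ^ 2 := by
    apply mul_left_cancel₀ h12pos
    linear_combination eL₁ + eL₂ + hL
  have hLsum' : L₁' + L₂' = dist (P 2) (P 3) ^ 2 := by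
    apply mul_left_cancel₀ h34pos
    linear_combination eL₁' + eL₂' + hL + hpow
  have hκsum : s₁ * (4 * K - 1 / (μ₁ * μ₂ * μ₃ * μ₄))
      + -(s₂ * (4 * K - 1 / (μ₁ * μ₂ * μ₄ * μ₃))) = inner ℝ (P 0 - P 1) (P 2 - P 3) := by
    rw [← hκ, show μ₁ * μ₂ * μ₄ * μ₃ = μ₁ * μ₂ * μ₃ * μ₄ by ring]
    ring
  apply ramsey_of_family
  intro r hr
  obtain ⟨n, hn1, hn⟩ := cycle_family_ramsey2 m₁ hm₁ T₁ hI₁ val₁ m₂ hm₂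
    (fun i => T₂ ((![0, 1, 3, 2] : Fin 4 → Fin 4) i)) (fun i => hI₂ _) val₂ r hr
  refine ⟨n, hn1, fun χ => ?_⟩
  obtain ⟨X, hmono, hX⟩ := hn χ
  refine ⟨X, hmono, ?_⟩
  obtain ⟨a1, a2, a3, a4, a5, a6⟩ := Q₁
  obtain ⟨b1, b2, b3, b4, b5, b6⟩ := Q₂'
  obtain ⟨c1, c2, c3, c4, c5, c6⟩ := Q₀
  simp only at a1 a2 a3 a4 a5 a6 b1 b2 b3 b4 b5 b6 c1 c2 c3 c4 c5 c6
  have key : ∀ i j : Fin 4, ∀ v : ℝ, dist (P i) (P j) ^ 2 = v →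
      dist (cycVec m₁ val₁ (T₁ i)) (cycVec m₁ val₁ (T₁ j)) ^ 2
        + dist (cycVec m₂ val₂ (T₂ ((![0, 1, 3, 2] : Fin 4 → Fin 4) i)))
            (cycVec m₂ val₂ (T₂ ((![0, 1, 3, 2] : Fin 4 → Fin 4) j))) ^ 2 = v →
      dist (X i) (X j) = dist (P i) (P j) := by
    intro i j v hv hw
    refine (pow_left_inj₀ dist_nonneg dist_nonneg two_ne_zero).mp ?_
    rw [hX i j, hw, hv]
  refine dist_family_eq X P ?_ ?_ ?_ ?_ ?_ ?_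
  · exact key 0 1 _ rfl (by rw [a1, b1, hLsum])
  · exact key 0 2 _ c3 (by rw [a3, b3, ← hLsum, ← hLsum', ← hκsum]; ring)
  · exact key 0 3 _ c4 (by rw [a4, b4, ← hLsum, ← hLsum', ← hκsum]; ring)
  · exact key 1 2 _ c5 (by rw [a5, b5, ← hLsum, ← hLsum', ← hκsum]; ring)
  · exact key 1 3 _ c6 (by rw [a6, b6, ← hLsum, ← hLsum', ← hκsum]; ring)
  · exact key 2 3 _ rfl (by rw [a2, b2, hLsum'])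

end Vale.Agent.P058
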