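import Vale.Agent.Lib.P058.Quad.Sub

/-!
# P058: cyclic quadrilaterals whose diagonal ratios `x`, `y` have `x y` and `x / y` rational
-/

namespace Vale.Agent.P058

open scoped BigOperators

theorem quad_core_gen {d : ℕ} (μ₁ μ₂ μ₃ μ₄ K₁ K₂ : ℝ) (h1 : 0 < μ₁) (h2 : 0 < μ₂) (h3 : 0 < μ₃)
    (h4 : 0 < μ₄) (h12 : μ₁ + μ₂ = 1) (h34 : μ₃ + μ₄ = 1) (α₁ β₁ α₂ β₂ : ℕ)
    (hα₁0 : 0 < α₁) (hβ₁0 : 0 < β₁) (hα₂0 : 0 < α₂) (hβ₂0 : 0 < β₂)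
    (hα₁ : (α₁ : ℝ) = K₁ * μ₁ * μ₃) (hβ₁ : (β₁ : ℝ) = K₁ * μ₂ * μ₄)
    (hα₂ : (α₂ : ℝ) = K₂ * μ₁ * μ₄) (hβ₂ : (β₂ : ℝ) = K₂ * μ₂ * μ₃)
    (P : Fin 4 → E d) (hdep : μ₁ • P 0 + μ₂ • P 1 = μ₃ • P 2 + μ₄ • P 3)
    (hpow : μ₁ * μ₂ * dist (P 0) (P 1) ^ 2 = μ₃ * μ₄ * dist (P 2) (P 3) ^ 2)
    (s₁ s₂ : ℝ) (hs₁ : 0 ≤ s₁) (hs₂ : 0 ≤ s₂)
    (hL : 2 * (K₁ * (μ₁ * μ₄ + μ₂ * μ₃) * s₁ + K₂ * (μ₁ * μ₃ + μ₂ * μ₄) * s₂)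
      = μ₁ * μ₂ * dist (P 0) (P 1) ^ 2)
    (hκ : (4 * K₁ - 1 / (μ₁ * μ₂ * μ₃ * μ₄)) * s₁ - (4 * K₂ - 1 / (μ₁ * μ₂ * μ₃ * μ₄)) * s₂
      = inner ℝ (P 0 - P 1) (P 2 - P 3)) :
    IsRamsey (Set.range P) := by
  obtain ⟨m₁, T₁, val₁, hm₁, hI₁, L₁, L₁', eL₁, eL₁', Q₁⟩ :=
    model_plus μ₁ μ₂ μ₃ μ₄ K₁ h1 h2 h3 h4 h12 h34 α₁ β₁ hα₁0 hβ₁0 hα₁ hβ₁ s₁ hs₁
  obtain ⟨m₂, T₂, val₂, hm₂, hI₂, L₂, L₂', eL₂, eL₂', Q₂⟩ :=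
    model_plus μ₁ μ₂ μ₄ μ₃ K₂ h1 h2 h4 h3 h12 (by linarith) α₂ β₂ hα₂0 hβ₂0 hα₂ hβ₂ s₂ hs₂
  have Q₂' := qform_swap μ₁ μ₂ μ₃ μ₄ _ L₂ L₂' _ (by rw [dist_comm]) Q₂
  have Q₀ := qform_of_dep μ₁ μ₂ μ₃ μ₄ h12 h34 P hdep
  have h12pos : μ₁ * μ₂ ≠ 0 := by positivity
  have h34pos : μ₃ * μ₄ ≠ 0 := by positivity
  have hLsum : L₁ + L₂ = dist (P 0) (P 1) ^ 2 := by
    apply mul_left_cancel₀ h12pos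
    linear_combination eL₁ + eL₂ + hL
  have hLsum' : L₁' + L₂' = dist (P 2) (P 3) ^ 2 := by
    apply mul_left_cancel₀ h34pos
    linear_combination eL₁' + eL₂' + hL + hpow
  have hκsum : s₁ * (4 * K₁ - 1 / (μ₁ * μ₂ * μ₃ * μ₄))
      + -(s₂ * (4 * K₂ - 1 / (μ₁ * μ₂ * μ₄ * μ₃))) = inner ℝ (P 0 - P 1) (P 2 - P 3) := by
    rw [← hκ, show μ₁ * μ₂ * μ₄ * μ₃ = μ₁ * μ₂ * μ₃ * μ₄ by ring]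
    ring
  apply ramsey_of_family
  intro r hr
  obtain ⟨n, hn1, hn⟩ := cycle_family_ramsey2 m₁ hm₁ T₁ hI₁ val₁ m₂ hm₂
    (fun i => T₂ ((![0, 1, 3, 2] : Fin 4 → Fin 4) i)) (fun i => hI₂ _) val₂ r hr
  refine ⟨n, hn1, fun χ => ?_⟩
  obtain ⟨X, hmono, hX⟩ := hn χ
  refine ⟨X, hmono, ?_⟩
  obtain ⟨a1, a2, a3, a4, a5, a6⟩ := Q₁
  obtain ⟨b1, b2, b3, b4, b5, b6⟩ := Q₂'
  obtain ⟨c1, c2, c3, c4, c5, c6⟩ := Q₀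
  simp only at a1 a2 a3 a4 a5 a6 b1 b2 b3 b4 b5 b6 c1 c2 c3 c4 c5 c6
  have key : ∀ i j : Fin 4, ∀ v : ℝ, dist (P i) (P j) ^ 2 = v →
      dist (cycVec m₁ val₁ (T₁ i)) (cycVec m₁ val₁ (T₁ j)) ^ 2
        + dist (cycVec m₂ val₂ (T₂ ((![0, 1, 3, 2] : Fin 4 → Fin 4) i)))
            (cycVec m₂ val₂ (T₂ ((![0, 1, 3, 2] : Fin 4 → Fin 4) j))) ^ 2 = v →
      dist (X i) (X j) = dist (P i) (P j) := by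
    intro i j v hv hw
    refine (pow_left_inj₀ dist_nonneg dist_nonneg two_ne_zero).mp ?_
    rw [hX i j, hw, hv]
  refine dist_family_eq X P ?_ ?_ ?_ ?_ ?_ ?_
  · exact key 0 1 _ rfl (by rw [a1, b1, hLsum])
  · exact key 0 2 _ c3 (by rw [a3, b3, ← hLsum, ← hLsum', ← hκsum]; ring)
  · exact key 0 3 _ c4 (by rw [a4, b4, ← hLsum, ← hLsum', ← hκsum]; ring)
  · exact key 1 2 _ c5 (by rw [a5, b5, ← hLsum, ← hLsum', ← hκsum]; ring)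
  · exact key 1 3 _ c6 (by rw [a6, b6, ← hLsum, ← hLsum', ← hκsum]; ring)
  · exact key 2 3 _ rfl (by rw [a2, b2, hLsum'])

theorem quad_core_sub_gen {d : ℕ} (μ₁ μ₂ μ₃ μ₄ K₁ K₂ : ℝ) (h1 : 0 < μ₁) (h2 : 0 < μ₂) (h3 : 0 < μ₃)
    (h4 : 0 < μ₄) (h12 : μ₁ + μ₂ = 1) (h34 : μ₃ + μ₄ = 1) (α₁ β₁ α₂ β₂ : ℕ)
    (hα₁0 : 0 < α₁) (hβ₁0 : 0 < β₁) (hα₂0 : 0 < α₂) (hβ₂0 : 0 < β₂)
    (hα₁ : (α₁ : ℝ) = K₁ * μ₁ * μ₃) (hβ₁ : (β₁ : ℝ) = K₁ * μ₂ * μ₄)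
    (hα₂ : (α₂ : ℝ) = K₂ * μ₁ * μ₄) (hβ₂ : (β₂ : ℝ) = K₂ * μ₂ * μ₃)
    (P : Fin 4 → E d) (hdep : μ₁ • P 0 + μ₂ • P 1 = μ₃ • P 2 + μ₄ • P 3)
    (hpow : μ₁ * μ₂ * dist (P 0) (P 1) ^ 2 = μ₃ * μ₄ * dist (P 2) (P 3) ^ 2)
    (s₁ s₂ : ℝ) (hs₁ : 0 ≤ s₁) (hs₂ : 0 ≤ s₂)
    (hL : 2 * (K₁ * (μ₁ * μ₄ + μ₂ * μ₃) * s₁ + K₂ * (μ₁ * μ₃ + μ₂ * μ₄) * s₂)
      = μ₁ * μ₂ * dist (P 0) (P 1) ^ 2)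
    (hκ : (4 * K₁ - 1 / (μ₁ * μ₂ * μ₃ * μ₄)) * s₁ - (4 * K₂ - 1 / (μ₁ * μ₂ * μ₃ * μ₄)) * s₂
      = inner ℝ (P 0 - P 1) (P 2 - P 3)) :
    IsSubtransitive (Set.range P) := by
  obtain ⟨m₁, T₁, val₁, hm₁, hI₁, L₁, L₁', eL₁, eL₁', Q₁⟩ :=
    model_plus μ₁ μ₂ μ₃ μ₄ K₁ h1 h2 h3 h4 h12 h34 α₁ β₁ hα₁0 hβ₁0 hα₁ hβ₁ s₁ hs₁
  obtain ⟨m₂, T₂, val₂, hm₂, hI₂, L₂, L₂', eL₂, eL₂', Q₂⟩ :=
    model_plus μ₁ μ₂ μ₄ μ₃ K₂ h1 h2 h4 h3 h12 (by linarith) α₂ β₂ hα₂0 hβ₂0 hα₂ hβ₂ s₂ hs₂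
  have Q₂' := qform_swap μ₁ μ₂ μ₃ μ₄ _ L₂ L₂' _ (by rw [dist_comm]) Q₂
  have Q₀ := qform_of_dep μ₁ μ₂ μ₃ μ₄ h12 h34 P hdep
  have h12pos : μ₁ * μ₂ ≠ 0 := by positivity
  have h34pos : μ₃ * μ₄ ≠ 0 := by positivity
  have hLsum : L₁ + L₂ = dist (P 0) (P 1) ^ 2 := by
    apply mul_left_cancel₀ h12pos
    linear_combination eL₁ + eL₂ + hL
  have hLsum' : L₁' + L₂' = dist (P 2) (P 3) ^ 2 := by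
    apply mul_left_cancel₀ h34pos
    linear_combination eL₁' + eL₂' + hL + hpow
  have hκsum : s₁ * (4 * K₁ - 1 / (μ₁ * μ₂ * μ₃ * μ₄))
      + -(s₂ * (4 * K₂ - 1 / (μ₁ * μ₂ * μ₄ * μ₃))) = inner ℝ (P 0 - P 1) (P 2 - P 3) := by
    rw [← hκ, show μ₁ * μ₂ * μ₄ * μ₃ = μ₁ * μ₂ * μ₃ * μ₄ by ring]
    ring
  set X : Fin 4 → E ((m₁ + 1) + (m₂ + 1)) := fun i => catVec (cycVec m₁ val₁ (T₁ i))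
    (cycVec m₂ val₂ (T₂ ((![0, 1, 3, 2] : Fin 4 → Fin 4) i))) with hXdef
  have hX : ∀ i i', dist (X i) (X i') ^ 2 =
      dist (cycVec m₁ val₁ (T₁ i)) (cycVec m₁ val₁ (T₁ i')) ^ 2
        + dist (cycVec m₂ val₂ (T₂ ((![0, 1, 3, 2] : Fin 4 → Fin 4) i)))
            (cycVec m₂ val₂ (T₂ ((![0, 1, 3, 2] : Fin 4 → Fin 4) i'))) ^ 2 :=
    fun i i' => catVec_dist_sq _ _ _ _
  refine subtransitive_of_family P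
    (permOrbit (catVec (cycVec m₁ val₁ (fun _ => false)) (cycVec m₂ val₂ (fun _ => false))))
    (permOrbit_transitive _) X
    (fun i => catVec_mem_permOrbit _ _ _ _ (cycVec_mem_permOrbit m₁ val₁ _ (hI₁ i))
      (cycVec_mem_permOrbit m₂ val₂ _ (hI₂ _))) ?_
  obtain ⟨a1, a2, a3, a4, a5, a6⟩ := Q₁
  obtain ⟨b1, b2, b3, b4, b5, b6⟩ := Q₂'
  obtain ⟨c1, c2, c3, c4, c5, c6⟩ := Q₀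
  simp only at a1 a2 a3 a4 a5 a6 b1 b2 b3 b4 b5 b6 c1 c2 c3 c4 c5 c6
  have key : ∀ i j : Fin 4, ∀ v : ℝ, dist (P i) (P j) ^ 2 = v →
      dist (cycVec m₁ val₁ (T₁ i)) (cycVec m₁ val₁ (T₁ j)) ^ 2
        + dist (cycVec m₂ val₂ (T₂ ((![0, 1, 3, 2] : Fin 4 → Fin 4) i)))
            (cycVec m₂ val₂ (T₂ ((![0, 1, 3, 2] : Fin 4 → Fin 4) j))) ^ 2 = v →
      dist (X i) (X j) = dist (P i) (P j) := by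
    intro i j v hv hw
    refine (pow_left_inj₀ dist_nonneg dist_nonneg two_ne_zero).mp ?_
    rw [hX i j, hw, hv]
  refine dist_family_eq X P ?_ ?_ ?_ ?_ ?_ ?_
  · exact key 0 1 _ rfl (by rw [a1, b1, hLsum])
  · exact key 0 2 _ c3 (by rw [a3, b3, ← hLsum, ← hLsum', ← hκsum]; ring)
  · exact key 0 3 _ c4 (by rw [a4, b4, ← hLsum, ← hLsum', ← hκsum]; ring)
  · exact key 1 2 _ c5 (by rw [a5, b5, ← hLsum, ← hLsum', ← hκsum]; ring)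
  · exact key 1 3 _ c6 (by rw [a6, b6, ← hLsum, ← hLsum', ← hκsum]; ring)
  · exact key 2 3 _ rfl (by rw [a2, b2, hLsum'])

theorem quad_solve2 (M σ σ' κ S K₁ K₂ : ℝ) (hσ : 0 < σ) (hσ' : 0 < σ') (hK₁ : 0 < K₁)
    (hK₂ : 0 < K₂) (hW₁ : 0 < 4 * K₁ - S) (hW₂ : 0 < 4 * K₂ - S)
    (he1 : M * S ≤ 2 * K₁ * (2 * M - σ * κ)) (he2 : M * S ≤ 2 * K₂ * (2 * M + σ' * κ)) :
    ∃ s₁ s₂ : ℝ, 0 ≤ s₁ ∧ 0 ≤ s₂ ∧ 2 * (K₁ * σ * s₁ + K₂ * σ' * s₂) = M ∧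
      (4 * K₁ - S) * s₁ - (4 * K₂ - S) * s₂ = κ := by
  obtain ⟨Δ, hΔd⟩ : ∃ Δ : ℝ, Δ = 2 * K₁ * σ * (4 * K₂ - S) + 2 * K₂ * σ' * (4 * K₁ - S) :=
    ⟨_, rfl⟩
  have hΔ : 0 < Δ := by rw [hΔd]; positivity
  have hne : Δ ≠ 0 := hΔ.ne'
  refine ⟨(M * (4 * K₂ - S) + κ * (2 * K₂ * σ')) / Δ,
    (M * (4 * K₁ - S) - κ * (2 * K₁ * σ)) / Δ, ?_, ?_, ?_, ?_⟩
  · exact div_nonneg (by linarith) hΔ.le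
  · exact div_nonneg (by linarith) hΔ.le
  · have key : 2 * (K₁ * σ * (M * (4 * K₂ - S) + κ * (2 * K₂ * σ'))
        + K₂ * σ' * (M * (4 * K₁ - S) - κ * (2 * K₁ * σ))) = M * Δ := by
      rw [hΔd]; ring
    calc 2 * (K₁ * σ * ((M * (4 * K₂ - S) + κ * (2 * K₂ * σ')) / Δ)
          + K₂ * σ' * ((M * (4 * K₁ - S) - κ * (2 * K₁ * σ)) / Δ))
        = (2 * (K₁ * σ * (M * (4 * K₂ - S) + κ * (2 * K₂ * σ'))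
          + K₂ * σ' * (M * (4 * K₁ - S) - κ * (2 * K₁ * σ)))) / Δ := by ring
      _ = M := by rw [key, mul_div_assoc, div_self hne, mul_one]
  · have key : (4 * K₁ - S) * (M * (4 * K₂ - S) + κ * (2 * K₂ * σ'))
        - (4 * K₂ - S) * (M * (4 * K₁ - S) - κ * (2 * K₁ * σ)) = κ * Δ := by
      rw [hΔd]; ring
    calc (4 * K₁ - S) * ((M * (4 * K₂ - S) + κ * (2 * K₂ * σ')) / Δ)
          - (4 * K₂ - S) * ((M * (4 * K₁ - S) - κ * (2 * K₁ * σ)) / Δ)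
        = ((4 * K₁ - S) * (M * (4 * K₂ - S) + κ * (2 * K₂ * σ'))
          - (4 * K₂ - S) * (M * (4 * K₁ - S) - κ * (2 * K₁ * σ))) / Δ := by ring
      _ = κ := by rw [key, mul_div_assoc, div_self hne, mul_one]

theorem quad_gen {d : ℕ} (A B C D O : E d) (μ₁ μ₂ μ₃ μ₄ : ℝ) (m1 : 0 < μ₁) (m2 : 0 < μ₂)
    (m3 : 0 < μ₃) (m4 : 0 < μ₄) (h12 : μ₁ + μ₂ = 1) (h34 : μ₃ + μ₄ = 1)
    (a b c e : ℕ) (ha : 0 < a) (hb : 0 < b) (hc : 0 < c) (he : 0 < e)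
    (hab : (a : ℝ) * (μ₂ * μ₄) = b * (μ₁ * μ₃)) (hce : (c : ℝ) * (μ₂ * μ₃) = e * (μ₁ * μ₄))
    (hA : dist A O = dist B O) (hC : dist C O = dist B O) (hD : dist D O = dist B O)
    (hdep : μ₁ • A + μ₂ • B = μ₃ • C + μ₄ • D)
    (h1 : inner ℝ (A - C) (B - D) < 0) (h2 : inner ℝ (A - D) (B - C) < 0) :
    IsRamsey ({A, B, C, D} : Set (E d)) ∧ IsSubtransitive ({A, B, C, D} : Set (E d)) := by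
  have ha' : (1 : ℝ) ≤ a := by exact_mod_cast ha
  have hc' : (1 : ℝ) ≤ c := by exact_mod_cast hc
  have hpow := quad_power μ₁ μ₂ μ₃ μ₄ h12 h34 A B C D O hdep hA hC hD
  obtain ⟨i1, i2⟩ := quad_inner μ₁ μ₂ μ₃ μ₄ h12 h34 A B C D hdep
  rw [← hpow] at i1 i2
  have hM : 0 ≤ μ₁ * μ₂ * dist A B ^ 2 := by positivity
  have e1 : 0 < 2 * (μ₁ * μ₂ * dist A B ^ 2)
      - (μ₁ * μ₄ + μ₂ * μ₃) * inner ℝ (A - B) (C - D) := by linarith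
  have e2 : 0 < 2 * (μ₁ * μ₂ * dist A B ^ 2)
      + (μ₁ * μ₃ + μ₂ * μ₄) * inner ℝ (A - B) (C - D) := by linarith
  have hS0 : 0 < 1 / (μ₁ * μ₂ * μ₃ * μ₄) := by positivity
  have l1 : μ₁ < 1 := by linarith
  have l3 : μ₃ < 1 := by linarith
  have l4 : μ₄ < 1 := by linarith
  have p13 : 0 < μ₁ * μ₃ := by positivity
  have p14 : 0 < μ₁ * μ₄ := by positivity
  have q13 : μ₁ * μ₃ ≤ 1 := by nlinarith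
  have q14 : μ₁ * μ₄ ≤ 1 := by nlinarith
  have hc1 : (1 : ℝ) ≤ (a : ℝ) / (μ₁ * μ₃) := by
    rw [le_div_iff₀ p13]; linarith
  have hc2 : (1 : ℝ) ≤ (c : ℝ) / (μ₁ * μ₄) := by
    rw [le_div_iff₀ p14]; linarith
  obtain ⟨k₁, hk₁0, hK₁0, hK₁S, hK₁e1, _⟩ := quad_choose
    (μ₁ * μ₂ * dist A B ^ 2 * (1 / (μ₁ * μ₂ * μ₃ * μ₄))) _ _ _ _ hS0 (by positivity) e1 e2 hc1
  obtain ⟨k₂, hk₂0, hK₂0, hK₂S, _, hK₂e2⟩ := quad_choose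
    (μ₁ * μ₂ * dist A B ^ 2 * (1 / (μ₁ * μ₂ * μ₃ * μ₄))) _ _ _ _ hS0 (by positivity) e1 e2 hc2
  obtain ⟨s₁, s₂, hs₁, hs₂, hL, hκ⟩ := quad_solve2 (μ₁ * μ₂ * dist A B ^ 2)
    (μ₁ * μ₄ + μ₂ * μ₃) (μ₁ * μ₃ + μ₂ * μ₄) _ _ _ _ (by positivity) (by positivity)
    hK₁0 hK₂0 hK₁S hK₂S hK₁e1 hK₂e2
  have f1 : ((k₁ * a : ℕ) : ℝ) = (k₁ : ℝ) * ((a : ℝ) / (μ₁ * μ₃)) * μ₁ * μ₃ := by
    push_cast; field_simp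
  have f2 : ((k₁ * b : ℕ) : ℝ) = (k₁ : ℝ) * ((a : ℝ) / (μ₁ * μ₃)) * μ₂ * μ₄ := by
    push_cast
    have : (k₁ : ℝ) * ((a : ℝ) / (μ₁ * μ₃)) * μ₂ * μ₄ = k₁ * ((a : ℝ) * (μ₂ * μ₄)) / (μ₁ * μ₃) := by
      ring
    rw [this, hab]; field_simp
  have f3 : ((k₂ * c : ℕ) : ℝ) = (k₂ : ℝ) * ((c : ℝ) / (μ₁ * μ₄)) * μ₁ * μ₄ := by
    push_cast; field_simp
  have f4 : ((k₂ * e : ℕ) : ℝ) = (k₂ : ℝ) * ((c : ℝ) / (μ₁ * μ₄)) * μ₂ * μ₃ := by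
    push_cast
    have : (k₂ : ℝ) * ((c : ℝ) / (μ₁ * μ₄)) * μ₂ * μ₃ = k₂ * ((c : ℝ) * (μ₂ * μ₃)) / (μ₁ * μ₄) := by
      ring
    rw [this, hce]; field_simp
  rw [← range_four]
  exact ⟨quad_core_gen μ₁ μ₂ μ₃ μ₄ _ _ m1 m2 m3 m4 h12 h34 (k₁ * a) (k₁ * b) (k₂ * c) (k₂ * e)
      (by positivity) (by positivity) (by positivity) (by positivity) f1 f2 f3 f4
      ![A, B, C, D] hdep hpow s₁ s₂ hs₁ hs₂ hL hκ,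
    quad_core_sub_gen μ₁ μ₂ μ₃ μ₄ _ _ m1 m2 m3 m4 h12 h34 (k₁ * a) (k₁ * b) (k₂ * c) (k₂ * e)
      (by positivity) (by positivity) (by positivity) (by positivity) f1 f2 f3 f4
      ![A, B, C, D] hdep hpow s₁ s₂ hs₁ hs₂ hL hκ⟩

end Vale.Agent.P058
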