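import Vale.Agent.Lib.P058.Quad.Core

/-!
# P058: cyclic quadrilaterals with rational diagonal ratios are Ramsey
-/

namespace Vale.Agent.P058

open scoped BigOperators

theorem range_four {α : Type*} (A B C D : α) :
    Set.range (![A, B, C, D] : Fin 4 → α) = {A, B, C, D} := by
  ext x
  simp only [Set.mem_range, Set.mem_insert_iff, Set.mem_singleton_iff]
  constructor
  · rintro ⟨i, rfl⟩
    fin_cases i <;> simp
  · rintro (h | h | h | h)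
    · exact ⟨0, by simp [h]⟩
    · exact ⟨1, by simp [h]⟩
    · exact ⟨2, by simp [h]⟩
    · exact ⟨3, by simp [h]⟩

theorem quad_solve (M σ σ' κ S K : ℝ) (hσσ : σ + σ' = 1) (hK0 : 0 < K) (hKS : 0 < 4 * K - S)
    (hKe1 : M * S ≤ 2 * K * (2 * M - σ * κ)) (hKe2 : M * S ≤ 2 * K * (2 * M + σ' * κ)) :
    ∃ s₁ s₂ : ℝ, 0 ≤ s₁ ∧ 0 ≤ s₂ ∧ 2 * K * (σ * s₁ + σ' * s₂) = M ∧
      (4 * K - S) * (s₁ - s₂) = κ := by
  obtain ⟨W, hW⟩ : ∃ W : ℝ, W = 4 * K - S := ⟨_, rfl⟩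
  have hS : S = 4 * K - W := by linarith
  rw [← hW] at hKS ⊢
  rw [hS] at hKe1 hKe2
  have hne : W ≠ 0 := hKS.ne'
  have hKne : K ≠ 0 := hK0.ne'
  refine ⟨M / (2 * K) + σ' * (κ / W), M / (2 * K) - σ * (κ / W), ?_, ?_, ?_, ?_⟩
  · have h5 : M / (2 * K) + σ' * (κ / W) = (2 * K * (σ' * κ) + M * W) / (2 * K * W) := by
      field_simp
      ring
    rw [h5]
    exact div_nonneg (by linarith) (by positivity)
  · have h5 : M / (2 * K) - σ * (κ / W) = (M * W - 2 * K * (σ * κ)) / (2 * K * W) := by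
      field_simp
    rw [h5]
    exact div_nonneg (by linarith) (by positivity)
  · have h6 : σ * (M / (2 * K) + σ' * (κ / W))
        + σ' * (M / (2 * K) - σ * (κ / W)) = M / (2 * K) := by
      linear_combination (M / (2 * K)) * hσσ
    rw [h6]
    field_simp
  · have h6 : M / (2 * K) + σ' * (κ / W) - (M / (2 * K) - σ * (κ / W)) = κ / W := by
      linear_combination (κ / W) * hσσ
    rw [h6]
    field_simp

theorem quad_choose (MS S e1 e2 c : ℝ) (hS0 : 0 < S) (hM0 : 0 ≤ MS) (he1 : 0 < e1) (he2 : 0 < e2)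
    (hc : 1 ≤ c) :
    ∃ k : ℕ, 0 < k ∧ 0 < (k : ℝ) * c ∧ 0 < 4 * ((k : ℝ) * c) - S ∧
      MS ≤ 2 * ((k : ℝ) * c) * e1 ∧ MS ≤ 2 * ((k : ℝ) * c) * e2 := by
  obtain ⟨k, hk⟩ := exists_nat_ge (max S (max (MS / e1) (MS / e2)))
  have hkS : S ≤ k := le_trans (le_max_left _ _) hk
  have hk1 : MS / e1 ≤ k := le_trans (le_trans (le_max_left _ _) (le_max_right _ _)) hk
  have hk2 : MS / e2 ≤ k := le_trans (le_trans (le_max_right _ _) (le_max_right _ _)) hk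
  have hk0' : (0 : ℝ) < k := lt_of_lt_of_le hS0 hkS
  have hk0 : 0 < k := by exact_mod_cast hk0'
  have hkK : (k : ℝ) ≤ (k : ℝ) * c := le_mul_of_one_le_right hk0'.le hc
  have hK0 : 0 < (k : ℝ) * c := lt_of_lt_of_le hk0' hkK
  refine ⟨k, hk0, hK0, by linarith, ?_, ?_⟩
  · have h3 : MS ≤ (k : ℝ) * c * e1 := (div_le_iff₀ he1).mp (le_trans hk1 hkK)
    have h4 : 0 ≤ (k : ℝ) * c * e1 := by positivity
    linarith
  · have h3 : MS ≤ (k : ℝ) * c * e2 := (div_le_iff₀ he2).mp (le_trans hk2 hkK)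
    have h4 : 0 ≤ (k : ℝ) * c * e2 := by positivity
    linarith

theorem quad_ramsey_real {d : ℕ} (A B C D O : E d) (p q r s : ℕ) (hp : 0 < p) (hq : 0 < q)
    (hr : 0 < r) (hs : 0 < s) (μ₁ μ₂ μ₃ μ₄ : ℝ) (hμ₁ : μ₁ = (p : ℝ) / (p + q))
    (hμ₂ : μ₂ = (q : ℝ) / (p + q)) (hμ₃ : μ₃ = (r : ℝ) / (r + s)) (hμ₄ : μ₄ = (s : ℝ) / (r + s))
    (hA : dist A O = dist B O) (hC : dist C O = dist B O) (hD : dist D O = dist B O)
    (hdep : μ₁ • A + μ₂ • B = μ₃ • C + μ₄ • D)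
    (h1 : inner ℝ (A - C) (B - D) < 0) (h2 : inner ℝ (A - D) (B - C) < 0) :
    IsRamsey ({A, B, C, D} : Set (E d)) := by
  have hp' : (0 : ℝ) < p := by exact_mod_cast hp
  have hq' : (0 : ℝ) < q := by exact_mod_cast hq
  have hr' : (0 : ℝ) < r := by exact_mod_cast hr
  have hs' : (0 : ℝ) < s := by exact_mod_cast hs
  have m1 : 0 < μ₁ := by rw [hμ₁]; positivity
  have m2 : 0 < μ₂ := by rw [hμ₂]; positivity
  have m3 : 0 < μ₃ := by rw [hμ₃]; positivity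
  have m4 : 0 < μ₄ := by rw [hμ₄]; positivity
  have h12 : μ₁ + μ₂ = 1 := by rw [hμ₁, hμ₂]; field_simp
  have h34 : μ₃ + μ₄ = 1 := by rw [hμ₃, hμ₄]; field_simp
  have hpow := quad_power μ₁ μ₂ μ₃ μ₄ h12 h34 A B C D O hdep hA hC hD
  obtain ⟨i1, i2⟩ := quad_inner μ₁ μ₂ μ₃ μ₄ h12 h34 A B C D hdep
  rw [← hpow] at i1 i2
  have hσσ : (μ₁ * μ₄ + μ₂ * μ₃) + (μ₁ * μ₃ + μ₂ * μ₄) = 1 := by
    linear_combination (μ₃ + μ₄) * h12 + h34
  have hM : 0 ≤ μ₁ * μ₂ * dist A B ^ 2 := by positivity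
  have e1 : 0 < 2 * (μ₁ * μ₂ * dist A B ^ 2)
      - (μ₁ * μ₄ + μ₂ * μ₃) * inner ℝ (A - B) (C - D) := by linarith
  have e2 : 0 < 2 * (μ₁ * μ₂ * dist A B ^ 2)
      + (μ₁ * μ₃ + μ₂ * μ₄) * inner ℝ (A - B) (C - D) := by linarith
  have hS0 : 0 < 1 / (μ₁ * μ₂ * μ₃ * μ₄) := by positivity
  have hc : (1 : ℝ) ≤ ((p : ℝ) + q) * (r + s) := by
    have hp1 : (1 : ℝ) ≤ p := by exact_mod_cast hp
    have hr1 : (1 : ℝ) ≤ r := by exact_mod_cast hr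
    have a1 : (1 : ℝ) ≤ (p : ℝ) + q := by linarith
    have a2 : (1 : ℝ) ≤ (r : ℝ) + s := by linarith
    calc (1 : ℝ) = 1 * 1 := by ring
      _ ≤ ((p : ℝ) + q) * (r + s) := mul_le_mul a1 a2 (by norm_num) (by linarith)
  obtain ⟨k, hk0, hK0, hKS, hKe1, hKe2⟩ := quad_choose
    (μ₁ * μ₂ * dist A B ^ 2 * (1 / (μ₁ * μ₂ * μ₃ * μ₄))) _ _ _ _ hS0 (by positivity) e1 e2 hc
  obtain ⟨s₁, s₂, hs₁, hs₂, hL, hκ⟩ := quad_solve (μ₁ * μ₂ * dist A B ^ 2) _ _ _ _ _ hσσ hK0 hKS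
    hKe1 hKe2
  rw [← range_four]
  have hpq : (p : ℝ) + q ≠ 0 := by positivity
  have hrs : (r : ℝ) + s ≠ 0 := by positivity
  refine quad_core μ₁ μ₂ μ₃ μ₄ ((k : ℝ) * (((p : ℝ) + q) * (r + s))) m1 m2 m3 m4 h12 h34
    (k * p * r) (k * q * s) (k * p * s)
    (k * q * r) (by positivity) (by positivity) (by positivity) (by positivity) ?_ ?_ ?_ ?_
    ![A, B, C, D] hdep hpow s₁ s₂ hs₁ hs₂ hL hκ
  · rw [hμ₁, hμ₃]; push_cast; field_simp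
  · rw [hμ₂, hμ₄]; push_cast; field_simp
  · rw [hμ₁, hμ₄]; push_cast; field_simp
  · rw [hμ₂, hμ₃]; push_cast; field_simp

theorem quad_ramsey {d : ℕ} (A B C D O : E d) (p q r s : ℕ) (hp : 0 < p) (hq : 0 < q)
    (hr : 0 < r) (hs : 0 < s)
    (hA : dist A O = dist B O) (hC : dist C O = dist B O) (hD : dist D O = dist B O)
    (hdep : ((p : ℝ) / (p + q)) • A + ((q : ℝ) / (p + q)) • B
      = ((r : ℝ) / (r + s)) • C + ((s : ℝ) / (r + s)) • D)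
    (h1 : inner ℝ (A - C) (B - D) < 0) (h2 : inner ℝ (A - D) (B - C) < 0) :
    IsRamsey ({A, B, C, D} : Set (E d)) :=
  quad_ramsey_real A B C D O p q r s hp hq hr hs _ _ _ _ rfl rfl rfl rfl hA hC hD hdep h1 h2

end Vale.Agent.P058
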