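import Vale.Agent.Lib.P058.Ramsey.Family

/-!
# P058: products of two cycle-matching families are Ramsey

Standard product argument, at the level of words (finite alphabets, so finitely many colours):
take `n₁` from `cycle_words` for the first family and `r` colours, then `n₂` from `cycle_words`
for the second family and `r₂ = card ((Fin n₁ → Fin (m₁+1)) → Fin r)` colours.  A colouring `χ` of
`E (n₁ + n₂)` induces the colouring `w₂ ↦ (w₁ ↦ χ (vec w₁ w₂))` of the words of length `n₂`.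
-/

namespace Vale.Agent.P058

open scoped BigOperators

/-- The squared distance computation for one half. -/
theorem half_sum {I : Type} (m : ℕ) (T : I → ℕ → Bool) (val : ℕ → ℝ) (n : ℕ)
    (x : I → Fin n → Fin (m + 1))
    (hF : ∀ F : (I → Fin (m + 1)) → ℝ, (∀ z, F (fun _ => z) = 0) →
        ∑ t, F (fun i => x i t) = ∑ y ∈ Finset.range (m + 1),
          F (fun i => (⟨swapAt m (T i) y % (m + 1), Nat.mod_lt _ (Nat.succ_pos m)⟩ :
            Fin (m + 1))))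
    (i i' : I) :
    ∑ t, (val (x i t).val - val (x i' t).val) ^ 2
      = dist (cycVec m val (T i)) (cycVec m val (T i')) ^ 2 := by
  have := hF (fun c => (val (c i).val - val (c i').val) ^ 2) (by intro z; simp)
  simp only at this
  rw [this, dist_sq_E, Finset.sum_range]
  apply Finset.sum_congr rfl
  intro y _
  have hy' : y.val ≤ m := by
    have := y.isLt
    omega
  rw [Nat.mod_eq_of_lt (Nat.lt_succ_of_le (swapAt_le m (T i) y hy')),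
    Nat.mod_eq_of_lt (Nat.lt_succ_of_le (swapAt_le m (T i') y hy'))]
  rfl

theorem cycle_family_ramsey2 {I : Type} (m₁ : ℕ) (hm₁ : 2 ≤ m₁) (T₁ : I → ℕ → Bool)
    (hT₁ : ∀ i, Indep m₁ (T₁ i)) (val₁ : ℕ → ℝ) (m₂ : ℕ) (hm₂ : 2 ≤ m₂) (T₂ : I → ℕ → Bool)
    (hT₂ : ∀ i, Indep m₂ (T₂ i)) (val₂ : ℕ → ℝ) (r : ℕ) (hr : 0 < r) :
    ∃ n, 1 ≤ n ∧ ∀ χ : E n → Fin r, ∃ X : I → E n, (∃ k0, ∀ i, χ (X i) = k0) ∧
      ∀ i i', dist (X i) (X i') ^ 2 =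
        dist (cycVec m₁ val₁ (T₁ i)) (cycVec m₁ val₁ (T₁ i')) ^ 2
          + dist (cycVec m₂ val₂ (T₂ i)) (cycVec m₂ val₂ (T₂ i')) ^ 2 := by
  classical
  obtain ⟨n₁, hn₁, H₁⟩ := cycle_words (A := Fin (m₁ + 1)) hr m₁ hm₁
    (fun j => ⟨j % (m₁ + 1), Nat.mod_lt _ (Nat.succ_pos m₁)⟩) T₁ hT₁
  have hne : Nonempty ((Fin n₁ → Fin (m₁ + 1)) → Fin r) := ⟨fun _ => ⟨0, hr⟩⟩
  have hr₂ : 0 < Fintype.card ((Fin n₁ → Fin (m₁ + 1)) → Fin r) := Fintype.card_pos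
  obtain ⟨n₂, hn₂, H₂⟩ := cycle_words (A := Fin (m₂ + 1)) hr₂ m₂ hm₂
    (fun j => ⟨j % (m₂ + 1), Nat.mod_lt _ (Nat.succ_pos m₂)⟩) T₂ hT₂
  refine ⟨n₁ + n₂, by omega, fun χ => ?_⟩
  set e := Fintype.equivFin ((Fin n₁ → Fin (m₁ + 1)) → Fin r) with he
  set vec : (Fin n₁ → Fin (m₁ + 1)) → (Fin n₂ → Fin (m₂ + 1)) → E (n₁ + n₂) :=
    fun w₁ w₂ => WithLp.toLp 2
      (Fin.append (fun t => val₁ (w₁ t).val) (fun t => val₂ (w₂ t).val)) with hvec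
  have hvl : ∀ w₁ w₂ (t : Fin n₁), vec w₁ w₂ (Fin.castAdd n₂ t) = val₁ (w₁ t).val := by
    intro w₁ w₂ t
    show Fin.append (fun t => val₁ (w₁ t).val) (fun t => val₂ (w₂ t).val) (Fin.castAdd n₂ t) = _
    rw [Fin.append_left]
  have hvr : ∀ w₁ w₂ (t : Fin n₂), vec w₁ w₂ (Fin.natAdd n₁ t) = val₂ (w₂ t).val := by
    intro w₁ w₂ t
    show Fin.append (fun t => val₁ (w₁ t).val) (fun t => val₂ (w₂ t).val) (Fin.natAdd n₁ t) = _
    rw [Fin.append_right]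
  obtain ⟨x₂, ⟨k₂, hk₂⟩, hF₂⟩ := H₂ (fun w₂ => e (fun w₁ => χ (vec w₁ w₂)))
  obtain ⟨x₁, ⟨k₁, hk₁⟩, hF₁⟩ := H₁ (e.symm k₂)
  refine ⟨fun i => vec (x₁ i) (x₂ i), ⟨k₁, fun i => ?_⟩, fun i i' => ?_⟩
  · have h := hk₂ i
    have h2 : (fun w₁ => χ (vec w₁ (x₂ i))) = e.symm k₂ := by
      rw [← h, Equiv.symm_apply_apply]
    have h3 : χ (vec (x₁ i) (x₂ i)) = e.symm k₂ (x₁ i) := congrFun h2 (x₁ i)
    rw [h3]
    exact hk₁ i
  · rw [dist_sq_E, Fin.sum_univ_add,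
      ← half_sum m₁ T₁ val₁ n₁ x₁ hF₁ i i', ← half_sum m₂ T₂ val₂ n₂ x₂ hF₂ i i']
    simp only [hvl, hvr]

end Vale.Agent.P058
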