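import Vale.Agent.Lib.P058.Ramsey.QuadKite

/-!
# P058: a product of two cycle-matching families lies in one orbit of coordinate permutations
-/

namespace Vale.Agent.P058

open scoped BigOperators

/-- concatenation of two vectors -/
noncomputable def catVec {a b : ℕ} (x : E a) (y : E b) : E (a + b) :=
  WithLp.toLp 2 (Fin.append (fun t => x t) (fun t => y t))

theorem catVec_left {a b : ℕ} (x : E a) (y : E b) (t : Fin a) :
    catVec x y (Fin.castAdd b t) = x t := by
  show Fin.append (fun t => x t) (fun t => y t) (Fin.castAdd b t) = _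
  rw [Fin.append_left]

theorem catVec_right {a b : ℕ} (x : E a) (y : E b) (t : Fin b) :
    catVec x y (Fin.natAdd a t) = y t := by
  show Fin.append (fun t => x t) (fun t => y t) (Fin.natAdd a t) = _
  rw [Fin.append_right]

theorem catVec_dist_sq {a b : ℕ} (x x' : E a) (y y' : E b) :
    dist (catVec x y) (catVec x' y') ^ 2 = dist x x' ^ 2 + dist y y' ^ 2 := by
  rw [dist_sq_E, dist_sq_E, dist_sq_E, Fin.sum_univ_add]
  simp only [catVec_left, catVec_right]

/-- block permutation -/
theorem catVec_mem_permOrbit {a b : ℕ} (w x : E a) (w' y : E b) (hx : x ∈ permOrbit w)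
    (hy : y ∈ permOrbit w') : catVec x y ∈ permOrbit (catVec w w') := by
  obtain ⟨π, rfl⟩ := hx
  obtain ⟨π', rfl⟩ := hy
  refine ⟨finSumFinEquiv.permCongr (Equiv.sumCongr π π'), ?_⟩
  ext i
  change act _ (catVec w w') i = catVec (act π w) (act π' w') i
  rw [act_apply]
  refine Fin.addCases (fun t => ?_) (fun t => ?_) i
  · have h : (finSumFinEquiv.permCongr (Equiv.sumCongr π π')).symm (Fin.castAdd b t)
        = Fin.castAdd b (π.symm t) := by
      rw [Equiv.symm_apply_eq, Equiv.permCongr_apply, finSumFinEquiv_symm_apply_castAdd]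
      simp
    rw [h, catVec_left, catVec_left, act_apply]
  · have h : (finSumFinEquiv.permCongr (Equiv.sumCongr π π')).symm (Fin.natAdd a t)
        = Fin.natAdd a (π'.symm t) := by
      rw [Equiv.symm_apply_eq, Equiv.permCongr_apply, finSumFinEquiv_symm_apply_natAdd]
      simp
    rw [h, catVec_right, catVec_right, act_apply]

end Vale.Agent.P058
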