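import Vale.Agent.Lib.P058.Quad.Main
import Vale.Agent.Lib.P058.Quad.SubLeaf

/-!
# P058: the cyclic quadrilaterals of `Quad/Main.lean` are also subtransitive
-/

namespace Vale.Agent.P058

open scoped BigOperators

theorem quad_core_sub {d : ℕ} (μ₁ μ₂ μ₃ μ₄ K : ℝ) (h1 : 0 < μ₁) (h2 : 0 < μ₂) (h3 : 0 < μ₃)
    (h4 : 0 < μ₄) (h12 : μ₁ + μ₂ = 1) (h34 : μ₃ + μ₄ = 1) (α₁ β₁ α₂ β₂ : ℕ)
    (hα₁0 : 0 < α₁) (hβ₁0 : 0 < β₁) (hα₂0 : 0 < α₂) (hβ₂0 : 0 < β₂)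
    (hα₁ : (α₁ : ℝ) = K * μ₁ * μ₃) (hβ₁ : (β₁ : ℝ) = K * μ₂ * μ₄)
    (hα₂ : (α₂ : ℝ) = K * μ₁ * μ₄) (hβ₂ : (β₂ : ℝ) = K * μ₂ * μ₃)
    (P : Fin 4 → E d) (hdep : μ₁ • P 0 + μ₂ • P 1 = μ₃ • P 2 + μ₄ • P 3)
    (hpow : μ₁ * μ₂ * dist (P 0) (P 1) ^ 2 = μ₃ * μ₄ * dist (P 2) (P 3) ^ 2)
    (s₁ s₂ : ℝ) (hs₁ : 0 ≤ s₁) (hs₂ : 0 ≤ s₂)
    (hL : 2 * K * ((μ₁ * μ₄ + μ₂ * μ₃) * s₁ + (μ₁ * μ₃ + μ₂ * μ₄) * s₂)
      = μ₁ * μ₂ * dist (P 0) (P 1) ^ 2)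
    (hκ : (4 * K - 1 / (μ₁ * μ₂ * μ₃ * μ₄)) * (s₁ - s₂) = inner ℝ (P 0 - P 1) (P 2 - P 3)) :
    IsSubtransitive (Set.range P) := by
  obtain ⟨m₁, T₁, val₁, hm₁, hI₁, L₁, L₁', eL₁, eL₁', Q₁⟩ :=
    model_plus μ₁ μ₂ μ₃ μ₄ K h1 h2 h3 h4 h12 h34 α₁ β₁ hα₁0 hβ₁0 hα₁ hβ₁ s₁ hs₁
  obtain ⟨m₂, T₂, val₂, hm₂, hI₂, L₂, L₂', eL₂, eL₂', Q₂⟩ :=
    model_plus μ₁ μ₂ μ₄ μ₃ K h1 h2 h4 h3 h12 (by linarith) α₂ β₂ hα₂0 hβ₂0 hα₂ hβ₂ s₂ hs₂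
  have Q₂' := qform_swap μ₁ μ₂ μ₃ μ₄ _ L₂ L₂' _ (by rw [dist_comm]) Q₂
  have Q₀ := qform_of_dep μ₁ μ₂ μ₃ μ₄ h12 h34 P hdep
  have h12pos : μ₁ * μ₂ ≠ 0 := by positivity
  have h34pos : μ₃ * μ₄ ≠ 0 := by positivity
  have hLsum : L₁ + L₂ = dist (P 0) (P 1) ^ 2 := by
    apply mul_left_cancel₀ h12pos
    linear_combination eL₁ + eL₂ + hL
  have hLsum' : L₁' + L₂' = dist (P 2) (P 3) ^ 2 := by
    apply mul_left_cancel₀ h34pos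
    linear_combination eL₁' + eL₂' + hL + hpow
  have hκsum : s₁ * (4 * K - 1 / (μ₁ * μ₂ * μ₃ * μ₄))
      + -(s₂ * (4 * K - 1 / (μ₁ * μ₂ * μ₄ * μ₃))) = inner ℝ (P 0 - P 1) (P 2 - P 3) := by
    rw [← hκ, show μ₁ * μ₂ * μ₄ * μ₃ = μ₁ * μ₂ * μ₃ * μ₄ by ring]
    ring
  set X : Fin 4 → E ((m₁ + 1) + (m₂ + 1)) := fun i => catVec (cycVec m₁ val₁ (T₁ i))
    (cycVec m₂ val₂ (T₂ ((![0, 1, 3, 2] : Fin 4 → Fin 4) i))) with hXdef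
  have hX : ∀ i i', dist (X i) (X i') ^ 2 =
      dist (cycVec m₁ val₁ (T₁ i)) (cycVec m₁ val₁ (T₁ i')) ^ 2
        + dist (cycVec m₂ val₂ (T₂ ((![0, 1, 3, 2] : Fin 4 → Fin 4) i)))
            (cycVec m₂ val₂ (T₂ ((![0, 1, 3, 2] : Fin 4 → Fin 4) i'))) ^ 2 :=
    fun i i' => catVec_dist_sq _ _ _ _
  refine subtransitive_of_family P
    (permOrbit (catVec (cycVec m₁ val₁ (fun _ => false)) (cycVec m₂ val₂ (fun _ => false))))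
    (permOrbit_transitive _) X
    (fun i => catVec_mem_permOrbit _ _ _ _ (cycVec_mem_permOrbit m₁ val₁ _ (hI₁ i))
      (cycVec_mem_permOrbit m₂ val₂ _ (hI₂ _))) ?_
  obtain ⟨a1, a2, a3, a4, a5, a6⟩ := Q₁
  obtain ⟨b1, b2, b3, b4, b5, b6⟩ := Q₂'
  obtain ⟨c1, c2, c3, c4, c5, c6⟩ := Q₀
  simp only at a1 a2 a3 a4 a5 a6 b1 b2 b3 b4 b5 b6 c1 c2 c3 c4 c5 c6
  have key : ∀ i j : Fin 4, ∀ v : ℝ, dist (P i) (P j) ^ 2 = v →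
      dist (cycVec m₁ val₁ (T₁ i)) (cycVec m₁ val₁ (T₁ j)) ^ 2
        + dist (cycVec m₂ val₂ (T₂ ((![0, 1, 3, 2] : Fin 4 → Fin 4) i)))
            (cycVec m₂ val₂ (T₂ ((![0, 1, 3, 2] : Fin 4 → Fin 4) j))) ^ 2 = v →
      dist (X i) (X j) = dist (P i) (P j) := by
    intro i j v hv hw
    refine (pow_left_inj₀ dist_nonneg dist_nonneg two_ne_zero).mp ?_
    rw [hX i j, hw, hv]
  refine dist_family_eq X P ?_ ?_ ?_ ?_ ?_ ?_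
  · exact key 0 1 _ rfl (by rw [a1, b1, hLsum])
  · exact key 0 2 _ c3 (by rw [a3, b3, ← hLsum, ← hLsum', ← hκsum]; ring)
  · exact key 0 3 _ c4 (by rw [a4, b4, ← hLsum, ← hLsum', ← hκsum]; ring)
  · exact key 1 2 _ c5 (by rw [a5, b5, ← hLsum, ← hLsum', ← hκsum]; ring)
  · exact key 1 3 _ c6 (by rw [a6, b6, ← hLsum, ← hLsum', ← hκsum]; ring)
  · exact key 2 3 _ rfl (by rw [a2, b2, hLsum'])

theorem quad_subtransitive_real {d : ℕ} (A B C D O : E d) (p q r s : ℕ) (hp : 0 < p) (hq : 0 < q)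
    (hr : 0 < r) (hs : 0 < s) (μ₁ μ₂ μ₃ μ₄ : ℝ) (hμ₁ : μ₁ = (p : ℝ) / (p + q))
    (hμ₂ : μ₂ = (q : ℝ) / (p + q)) (hμ₃ : μ₃ = (r : ℝ) / (r + s)) (hμ₄ : μ₄ = (s : ℝ) / (r + s))
    (hA : dist A O = dist B O) (hC : dist C O = dist B O) (hD : dist D O = dist B O)
    (hdep : μ₁ • A + μ₂ • B = μ₃ • C + μ₄ • D)
    (h1 : inner ℝ (A - C) (B - D) < 0) (h2 : inner ℝ (A - D) (B - C) < 0) :
    IsSubtransitive ({A, B, C, D} : Set (E d)) := by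
  have hp' : (0 : ℝ) < p := by exact_mod_cast hp
  have hq' : (0 : ℝ) < q := by exact_mod_cast hq
  have hr' : (0 : ℝ) < r := by exact_mod_cast hr
  have hs' : (0 : ℝ) < s := by exact_mod_cast hs
  have m1 : 0 < μ₁ := by rw [hμ₁]; positivity
  have m2 : 0 < μ₂ := by rw [hμ₂]; positivity
  have m3 : 0 < μ₃ := by rw [hμ₃]; positivity
  have m4 : 0 < μ₄ := by rw [hμ₄]; positivity
  have h12 : μ₁ + μ₂ = 1 := by rw [hμ₁, hμ₂]; field_simp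
  have h34 : μ₃ + μ₄ = 1 := by rw [hμ₃, hμ₄]; field_simp
  have hpow := quad_power μ₁ μ₂ μ₃ μ₄ h12 h34 A B C D O hdep hA hC hD
  obtain ⟨i1, i2⟩ := quad_inner μ₁ μ₂ μ₃ μ₄ h12 h34 A B C D hdep
  rw [← hpow] at i1 i2
  have hσσ : (μ₁ * μ₄ + μ₂ * μ₃) + (μ₁ * μ₃ + μ₂ * μ₄) = 1 := by
    linear_combination (μ₃ + μ₄) * h12 + h34
  have hM : 0 ≤ μ₁ * μ₂ * dist A B ^ 2 := by positivity
  have e1 : 0 < 2 * (μ₁ * μ₂ * dist A B ^ 2)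
      - (μ₁ * μ₄ + μ₂ * μ₃) * inner ℝ (A - B) (C - D) := by linarith
  have e2 : 0 < 2 * (μ₁ * μ₂ * dist A B ^ 2)
      + (μ₁ * μ₃ + μ₂ * μ₄) * inner ℝ (A - B) (C - D) := by linarith
  have hS0 : 0 < 1 / (μ₁ * μ₂ * μ₃ * μ₄) := by positivity
  have hc : (1 : ℝ) ≤ ((p : ℝ) + q) * (r + s) := by
    have hp1 : (1 : ℝ) ≤ p := by exact_mod_cast hp
    have hr1 : (1 : ℝ) ≤ r := by exact_mod_cast hr
    have a1 : (1 : ℝ) ≤ (p : ℝ) + q := by linarith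
    have a2 : (1 : ℝ) ≤ (r : ℝ) + s := by linarith
    calc (1 : ℝ) = 1 * 1 := by ring
      _ ≤ ((p : ℝ) + q) * (r + s) := mul_le_mul a1 a2 (by norm_num) (by linarith)
  obtain ⟨k, hk0, hK0, hKS, hKe1, hKe2⟩ := quad_choose
    (μ₁ * μ₂ * dist A B ^ 2 * (1 / (μ₁ * μ₂ * μ₃ * μ₄))) _ _ _ _ hS0 (by positivity) e1 e2 hc
  obtain ⟨s₁, s₂, hs₁, hs₂, hL, hκ⟩ := quad_solve (μ₁ * μ₂ * dist A B ^ 2) _ _ _ _ _ hσσ hK0 hKS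
    hKe1 hKe2
  rw [← range_four]
  have hpq : (p : ℝ) + q ≠ 0 := by positivity
  have hrs : (r : ℝ) + s ≠ 0 := by positivity
  refine quad_core_sub μ₁ μ₂ μ₃ μ₄ ((k : ℝ) * (((p : ℝ) + q) * (r + s))) m1 m2 m3 m4 h12 h34
    (k * p * r) (k * q * s) (k * p * s)
    (k * q * r) (by positivity) (by positivity) (by positivity) (by positivity) ?_ ?_ ?_ ?_
    ![A, B, C, D] hdep hpow s₁ s₂ hs₁ hs₂ hL hκ
  · rw [hμ₁, hμ₃]; push_cast; field_simp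
  · rw [hμ₂, hμ₄]; push_cast; field_simp
  · rw [hμ₁, hμ₄]; push_cast; field_simp
  · rw [hμ₂, hμ₃]; push_cast; field_simp

theorem quad_subtransitive {d : ℕ} (A B C D O : E d) (p q r s : ℕ) (hp : 0 < p) (hq : 0 < q)
    (hr : 0 < r) (hs : 0 < s)
    (hA : dist A O = dist B O) (hC : dist C O = dist B O) (hD : dist D O = dist B O)
    (hdep : ((p : ℝ) / (p + q)) • A + ((q : ℝ) / (p + q)) • B
      = ((r : ℝ) / (r + s)) • C + ((s : ℝ) / (r + s)) • D)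
    (h1 : inner ℝ (A - C) (B - D) < 0) (h2 : inner ℝ (A - D) (B - C) < 0) :
    IsSubtransitive ({A, B, C, D} : Set (E d)) :=
  quad_subtransitive_real A B C D O p q r s hp hq hr hs _ _ _ _ rfl rfl rfl rfl hA hC hD hdep h1 h2

end Vale.Agent.P058
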